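import Vale.Agent.P038.H71.Plan

/-!
# P038 (S450): the strict inequality (G) in a counterexample with the fewest arcs

If every vertex of the oriented graph `D` has more out-neighbours than second out-neighbours and `D`
has the fewest arcs among such graphs on the same vertex set, then for every set `X` which is not
closed under out-neighbours the second out-layer of `X` is smaller than the first one.
-/

namespace Vale.Agent.P038.S450

open Finset Vale.Agent.P038.H139 Vale.Agent.P038.H71

universe u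

variable {V : Type u} [Fintype V]

theorem W_one (S : Finset V) : W (fun _ => (1 : ℝ)) S = (S.card : ℝ) := by
  simp [W]

theorem ce_of_fw {D : OGraph V} (h : ∀ v, 1 ≤ Fw 1 D (fun _ => (1 : ℝ)) v) (v : V) :
    (N2 D v).card < (N1 D v).card := by
  have h1 := h v
  unfold Fw at h1
  rw [W_one, W_one] at h1
  have h2 : ((N2 D v).card : ℝ) < (N1 D v).card := by linarith
  exact_mod_cast h2

theorem fw_of_ce {D : OGraph V} (h : ∀ v, (N2 D v).card < (N1 D v).card) (v : V) :
    1 ≤ Fw 1 D (fun _ => (1 : ℝ)) v := by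
  have h1 := h v
  have h2 : ((N2 D v).card : ℝ) + 1 ≤ (N1 D v).card := by exact_mod_cast h1
  unfold Fw
  rw [W_one, W_one]
  linarith

/-- Strict (G) for an arc-minimal counterexample. -/
theorem G [DecidableEq V] (D : OGraph V) (hCE : ∀ v, (N2 D v).card < (N1 D v).card)
    (hmin : ∀ D' : OGraph V, (∀ v, (N2 D' v).card < (N1 D' v).card) →
      (∑ v, (N1 D v).card) ≤ ∑ v, (N1 D' v).card) (X : Finset V) (hX : cl D X ≠ X) :
    (cl D (cl D X) \ cl D X).card < (cl D X \ X).card := by
  classical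
  set w : V → ℝ := fun _ => (1 : ℝ) with hw
  set L := Lx D X with hL
  set d := dd 1 D w X with hd
  have hw0 : ∀ v, 0 ≤ w v := fun _ => by simp [hw]
  have hXsub : X ⊆ cl D X := fun z hz => mem_cl.2 (Or.inl hz)
  have hLeq : cl D X \ X = L := by
    ext z
    rw [hL]
    simp only [Lx, Finset.mem_sdiff, mem_cl, mem_outS]
    tauto
  have hLne : L ≠ ∅ := by
    intro he
    rw [he] at hLeq
    exact hX (Finset.Subset.antisymm (Finset.sdiff_eq_empty_iff_subset.1 hLeq) hXsub)
  -- every minimiser of `d` is `L`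
  have key : ∀ T ⊆ L, (∀ S ⊆ L, d T ≤ d S) → T = L := by
    intro T hT hTmin
    by_contra hne
    have hall := del_rows (lam := 1) (D := D) hw0 (fw_of_ce hCE) X T hT
      (fun S _ hS => hTmin S hS)
    have h2 := hmin _ (ce_of_fw hall)
    obtain ⟨z, hzL, hzT⟩ := Finset.exists_of_ssubset (Finset.ssubset_iff_subset_ne.2 ⟨hT, hne⟩)
    have hzL' : z ∈ outS D X \ X := hzL
    obtain ⟨y, hy, hyz⟩ := mem_outS.1 (Finset.mem_sdiff.1 hzL').1
    have h3 := numArcs_lt_del (D := D) (Z := Lx D X \ T) hy (Finset.mem_sdiff.2 ⟨hzL, hzT⟩) hyz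
    unfold numArcs at h3
    omega
  obtain ⟨T0, hT0, hT0min⟩ := Finset.exists_min_image L.powerset d ⟨∅, Finset.empty_mem_powerset _⟩
  rw [Finset.mem_powerset] at hT0
  have hT0min' : ∀ S ⊆ L, d T0 ≤ d S := fun S hS => hT0min S (Finset.mem_powerset.2 hS)
  have hT0L : T0 = L := key T0 hT0 hT0min'
  have hlt : d L < d ∅ := by
    rcases lt_or_eq_of_le (hT0min' ∅ (Finset.empty_subset _)) with h1 | h1
    · rw [hT0L] at h1
      exact h1
    · exact absurd (key ∅ (Finset.empty_subset _) (fun S hS => h1 ▸ hT0min' S hS)).symm hLne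
  have hcl0 : cl D (∅ : Finset V) = ∅ := by
    ext z
    simp [mem_cl]
  have hd0 : d ∅ = 0 := by
    simp only [hd, dd, hcl0, W, Finset.empty_sdiff, Finset.sum_empty]
    ring
  have e1 : cl D L \ X = L ∪ (cl D (cl D X) \ cl D X) := by
    ext z
    rw [← hLeq]
    simp only [Finset.mem_sdiff, Finset.mem_union, mem_cl]
    constructor
    · rintro ⟨h1, h2⟩
      by_cases h3 : ∃ y ∈ X, D.arc y z
      · exact Or.inl ⟨Or.inr h3, h2⟩
      · rcases h1 with h1 | ⟨y, hy, hyz⟩
        · exact Or.inl h1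
        · right
          refine ⟨Or.inr ⟨y, ?_, hyz⟩, ?_⟩
          · exact hy.1
          · rintro (h4 | h4)
            · exact h2 h4
            · exact h3 h4
    · rintro (h1 | ⟨h1, h2⟩)
      · exact ⟨Or.inl h1, h1.2⟩
      · have hzX : z ∉ X := fun h3 => h2 (Or.inl h3)
        refine ⟨?_, hzX⟩
        rcases h1 with h1 | ⟨y, hy, hyz⟩
        · exact absurd h1 h2
        · by_cases hyX : y ∈ X
          · exact absurd (Or.inr ⟨y, hyX, hyz⟩) h2
          · exact Or.inr ⟨y, ⟨hy, hyX⟩, hyz⟩
  have e2 : Disjoint L (cl D (cl D X) \ cl D X) := by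
    rw [← hLeq, Finset.disjoint_left]
    intro z hz hz'
    exact (Finset.mem_sdiff.1 hz').2 (Finset.mem_sdiff.1 hz).1
  have h5 : d L = (L.card : ℝ) + ((cl D (cl D X) \ cl D X).card : ℝ) - 2 * L.card := by
    simp only [hd, dd]
    rw [e1, hw, W_one, W_one, Finset.card_union_of_disjoint e2]
    push_cast
    ring
  rw [hd0, h5] at hlt
  rw [hLeq]
  have h6 : ((cl D (cl D X) \ cl D X).card : ℝ) < L.card := by linarith
  exact_mod_cast h6

end Vale.Agent.P038.S450
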