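import Vale.Agent.P038.S450.G
import Vale.Agent.P038.H391.MF

/-!
# P038 (S450): Seymour's second neighbourhood conjecture, unweighted form
-/

namespace Vale.Agent.P038.S450

open Finset Vale.Agent.P038.H139

universe u

variable {V : Type u} [Fintype V]

theorem nb_cl [DecidableEq V] (D : OGraph V) (X : Finset V) :
    H391.nb (fun a => cl D {a}) X = cl D X := by
  ext z
  rw [H391.mem_nb, mem_cl]
  simp only [mem_cl, Finset.mem_singleton, exists_eq_left]
  constructor
  · rintro ⟨x, hx, h1 | h1⟩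
    · exact Or.inl (h1 ▸ hx)
    · exact Or.inr ⟨x, hx, h1⟩
  · rintro (h1 | ⟨x, hx, h1⟩)
    · exact ⟨z, h1, Or.inl rfl⟩
    · exact ⟨x, hx, Or.inr h1⟩

theorem hh_one [DecidableEq V] (D : OGraph V) (X : Finset V) :
    H391.hh (fun a => cl D {a}) (fun _ => (1 : ℝ)) X = ((cl D X \ X).card : ℝ) := by
  unfold H391.hh H391.W
  rw [nb_cl]
  have hsub : X ⊆ cl D X := fun z hz => mem_cl.2 (Or.inl hz)
  simp only [Finset.sum_const, nsmul_eq_mul, mul_one]
  rw [Finset.card_sdiff_of_subset hsub, Nat.cast_sub (Finset.card_le_card hsub)]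

/-- **Seymour's second neighbourhood conjecture.** -/
theorem seymour [Nonempty V] (D : OGraph V) : ∃ v, (N1 D v).card ≤ (N2 D v).card := by
  classical
  by_contra hcon
  push Not at hcon
  -- a counterexample on `V` with the fewest arcs
  have hex : ∃ m, ∃ D' : OGraph V, (∀ v, (N2 D' v).card < (N1 D' v).card) ∧
      ∑ v, (N1 D' v).card = m := ⟨_, D, hcon, rfl⟩
  obtain ⟨D0, hCE, hm⟩ := Nat.find_spec hex
  have hmin : ∀ D' : OGraph V, (∀ v, (N2 D' v).card < (N1 D' v).card) →
      (∑ v, (N1 D0 v).card) ≤ ∑ v, (N1 D' v).card := by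
    intro D' hD'
    rw [hm]
    exact Nat.find_min' hex ⟨D', hD', rfl⟩
  refine H391.no_strict (fun a => cl D0 {a}) (fun a => mem_cl.2 (Or.inl (by simp))) ?_
    (fun _ => (1 : ℝ)) (fun _ => one_pos) ?_ ?_
  · intro a b hb ha
    rw [mem_cl] at hb ha
    simp only [Finset.mem_singleton, exists_eq_left] at hb ha
    rcases hb with hb | hb
    · exact hb.symm
    · rcases ha with ha | ha
      · exact ha
      · exact absurd ha (D0.asymm a b hb)
  · intro a
    have h1 : 0 < (N1 D0 a).card := lt_of_le_of_lt (Nat.zero_le _) (hCE a)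
    obtain ⟨b, hb⟩ := Finset.card_pos.1 h1
    rw [mem_N1] at hb
    refine ⟨b, mem_cl.2 (Or.inr ⟨a, by simp, hb⟩), ?_⟩
    rintro rfl
    exact D0.loopless b hb
  · intro X hX
    rw [nb_cl] at hX ⊢
    rw [hh_one, hh_one]
    exact_mod_cast G D0 hCE hmin X hX

end Vale.Agent.P038.S450
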